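import Mathlib

/-!
# Splitting polynomials of even degree over `𝔽_p`, `p ≡ 3 (mod 4)`, without nonresidues

For a finite set `S` of elements of `𝔽_p` the score of `a` is `∑_{b ∈ S} χ(a - b)` (`χ` the quadratic
character).  For `p ≡ 3 (mod 4)` the scores sum to zero; for `|S|` even they are odd integers.
-/

open Polynomial

namespace Vale.Agent.Lib.P319

variable {p : ℕ} [Fact p.Prime]

/-- The score of `a` with respect to `S`: the sum of the quadratic characters of `a - b`, `b ∈ S`. -/
noncomputable def score (S : Finset (ZMod p)) (a : ZMod p) : ℤ :=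
  ∑ b ∈ S, quadraticChar (ZMod p) (a - b)

theorem ringChar_ne_two (hp : p % 4 = 3) : ringChar (ZMod p) ≠ 2 := by
  rw [ZMod.ringChar_zmod_n]
  omega

theorem qc_neg (hp : p % 4 = 3) (x : ZMod p) :
    quadraticChar (ZMod p) (-x) = - quadraticChar (ZMod p) x := by
  have h : -x = (-1) * x := by ring
  rw [h, map_mul, quadraticChar_neg_one (ringChar_ne_two hp), ZMod.card,
    ZMod.χ₄_nat_three_mod_four hp]
  ring

theorem sum_score (hp : p % 4 = 3) (S : Finset (ZMod p)) : ∑ a ∈ S, score S a = 0 := by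
  have h : ∑ a ∈ S, score S a = - ∑ a ∈ S, score S a := by
    unfold score
    conv_lhs => rw [Finset.sum_comm]
    rw [← Finset.sum_neg_distrib]
    refine Finset.sum_congr rfl fun a _ => ?_
    rw [← Finset.sum_neg_distrib]
    refine Finset.sum_congr rfl fun b _ => ?_
    rw [← neg_sub a b, qc_neg hp]
  linarith

theorem score_eq_erase (S : Finset (ZMod p)) (a : ZMod p) :
    score S a = ∑ b ∈ S.erase a, quadraticChar (ZMod p) (a - b) := by
  unfold score
  rw [Finset.sum_erase]
  rw [sub_self, quadraticChar_zero]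

theorem score_odd (S : Finset (ZMod p)) (hS : Even S.card) {a : ZMod p} (ha : a ∈ S) :
    Odd (score S a) := by
  have h1 : Even (∑ b ∈ S.erase a, (quadraticChar (ZMod p) (a - b) - 1)) := by
    refine Finset.even_sum _ fun b hb => ?_
    have hne : a - b ≠ 0 := sub_ne_zero.mpr (Finset.ne_of_mem_erase hb).symm
    rcases quadraticChar_dichotomy hne with h | h <;> rw [h] <;> decide
  rw [Finset.sum_sub_distrib] at h1
  simp only [Finset.sum_const, nsmul_eq_mul, mul_one] at h1
  rw [← score_eq_erase, Finset.card_erase_of_mem ha] at h1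
  have hpos : 0 < S.card := Finset.card_pos.mpr ⟨a, ha⟩
  obtain ⟨k, hk⟩ := hS
  obtain ⟨m, hm⟩ := h1
  have hc : ((S.card - 1 : ℕ) : ℤ) = 2 * (k : ℤ) - 1 := by
    have : S.card - 1 + 1 = k + k := by omega
    have h2 : ((S.card - 1 : ℕ) : ℤ) + 1 = (k : ℤ) + k := by exact_mod_cast this
    linarith
  refine ⟨m + k - 1, ?_⟩
  rw [hc] at hm
  linarith

theorem abs_score_le (S : Finset (ZMod p)) {a : ZMod p} (ha : a ∈ S) :
    |score S a| ≤ (S.card : ℤ) - 1 := by
  rw [score_eq_erase]
  have h1 : |∑ b ∈ S.erase a, quadraticChar (ZMod p) (a - b)| ≤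
      ∑ b ∈ S.erase a, |quadraticChar (ZMod p) (a - b)| := Finset.abs_sum_le_sum_abs _ _
  have h2 : ∑ b ∈ S.erase a, |quadraticChar (ZMod p) (a - b)| ≤ ∑ _b ∈ S.erase a, (1 : ℤ) := by
    refine Finset.sum_le_sum fun b hb => ?_
    have hne : a - b ≠ 0 := sub_ne_zero.mpr (Finset.ne_of_mem_erase hb).symm
    rcases quadraticChar_dichotomy hne with h | h <;> rw [h] <;> simp
  have hpos : 0 < S.card := Finset.card_pos.mpr ⟨a, ha⟩
  have h3 : ∑ _b ∈ S.erase a, (1 : ℤ) = (S.card : ℤ) - 1 := by
    simp only [Finset.sum_const, nsmul_eq_mul, mul_one]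
    rw [Finset.card_erase_of_mem ha]
    have : S.card - 1 + 1 = S.card := by omega
    have h4 : ((S.card - 1 : ℕ) : ℤ) + 1 = (S.card : ℤ) := by exact_mod_cast this
    linarith
  linarith

/-- The trace polynomial `T = ∑_{b ∈ S} (X - b)^((p-1)/2)`. -/
noncomputable def tracePoly (S : Finset (ZMod p)) : (ZMod p)[X] :=
  ∑ b ∈ S, (X - C b) ^ ((p - 1) / 2)

theorem eval_tracePoly (hp : p % 4 = 3) (S : Finset (ZMod p)) (a : ZMod p) :
    (tracePoly S).eval a = ((score S a : ℤ) : ZMod p) := by
  unfold tracePoly score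
  rw [Polynomial.eval_finsetSum, Int.cast_sum]
  refine Finset.sum_congr rfl fun b _ => ?_
  rw [quadraticChar_eq_pow_of_char_ne_two' (ringChar_ne_two hp), ZMod.card]
  have : (p - 1) / 2 = p / 2 := by omega
  rw [this]
  simp

/-- Two roots with different scores, also different modulo `p`. -/
theorem exists_scores (hp : p % 4 = 3) (S : Finset (ZMod p)) (hS : Even S.card)
    (hne : S.Nonempty) :
    ∃ a ∈ S, ∃ a' ∈ S, ((score S a' : ℤ) : ZMod p) ≠ ((score S a : ℤ) : ZMod p) := by
  obtain ⟨a, ha⟩ := hne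
  have hodd := score_odd S hS ha
  have hex : ∃ a' ∈ S, score S a' ≠ score S a := by
    by_contra hcon
    push Not at hcon
    have h1 : ∑ x ∈ S, score S x = ∑ _x ∈ S, score S a := Finset.sum_congr rfl hcon
    rw [sum_score hp, Finset.sum_const, nsmul_eq_mul] at h1
    have hpos : (0 : ℤ) < S.card := by exact_mod_cast Finset.card_pos.mpr ⟨a, ha⟩
    have h0 : score S a = 0 := by
      rcases mul_eq_zero.mp h1.symm with h | h
      · omega
      · exact h
    rw [h0] at hodd
    exact absurd hodd (by decide)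
  obtain ⟨a', ha', hne'⟩ := hex
  refine ⟨a, ha, a', ha', ?_⟩
  intro heq
  rw [ZMod.intCast_eq_intCast_iff_dvd_sub] at heq
  obtain ⟨k, hk⟩ := heq
  have hodd' := score_odd S hS ha'
  have hb := abs_score_le S ha
  have hb' := abs_score_le S ha'
  have hcard : (S.card : ℤ) ≤ p := by
    have := Finset.card_le_univ S
    rw [ZMod.card] at this
    exact_mod_cast this
  obtain ⟨u, hu⟩ := hodd
  obtain ⟨u', hu'⟩ := hodd'
  rw [abs_le] at hb hb'
  have hp0 : (0 : ℤ) < p := by
    have := (Fact.out : p.Prime).pos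
    exact_mod_cast this
  have hpodd : ∃ w : ℤ, (p : ℤ) = 2 * w + 1 := ⟨(p / 2 : ℕ), by
    have : p = 2 * (p / 2) + 1 := by omega
    exact_mod_cast this⟩
  obtain ⟨w, hw⟩ := hpodd
  -- `p * k` is even, nonzero and of absolute value `< 2 p`
  have hk1 : k < 2 := by
    by_contra hcon
    have : (2 : ℤ) ≤ k := by omega
    nlinarith
  have hk2 : -2 < k := by
    by_contra hcon
    have : k ≤ -2 := by omega
    nlinarith
  have hk3 : k ≠ 0 := by
    rintro rfl
    apply hne'
    linarith
  have hk4 : k = 1 ∨ k = -1 := by omega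
  rcases hk4 with rfl | rfl <;> omega

end Vale.Agent.Lib.P319
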